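import Mathlib

/-! P226: one-dimensional Gaussian calculus. -/

namespace P226

open MeasureTheory Set Filter Topology Real

/-- the Gaussian density -/
noncomputable def phi (t : ℝ) : ℝ := (√(2 * π))⁻¹ * exp (-(1 / 2) * t ^ 2)

/-- the Gaussian tail, written as `1/2 - ∫_0^s` -/
noncomputable def Tl (s : ℝ) : ℝ := 1 / 2 - ∫ t in (0 : ℝ)..s, phi t

theorem root_pos : 0 < √(2 * π) := by positivity

theorem phi_pos (t : ℝ) : 0 < phi t := by unfold phi; positivity

theorem phi_cont : Continuous phi := by unfold phi; fun_prop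

theorem phi_int : Integrable phi := by
  unfold phi
  exact (integrable_exp_neg_mul_sq (by norm_num : (0 : ℝ) < 1 / 2)).const_mul _

theorem mul_phi_int : Integrable (fun t => t * phi t) := by
  have h := (integrable_mul_exp_neg_mul_sq (by norm_num : (0 : ℝ) < 1 / 2)).const_mul (√(2 * π))⁻¹
  refine h.congr (Eventually.of_forall fun t => ?_)
  simp only [phi]
  ring

theorem phi_half : ∫ t in Ioi (0 : ℝ), phi t = 1 / 2 := by
  unfold phi
  rw [integral_const_mul, integral_gaussian_Ioi]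
  have h : π / (1 / 2) = 2 * π := by ring
  rw [h]
  have := root_pos.ne'
  field_simp

theorem Tl_eq (s : ℝ) : ∫ t in Ioi s, phi t = Tl s := by
  have h := intervalIntegral.integral_interval_add_Ioi (a := 0) (b := s)
    (phi_int.integrableOn (s := Ioi 0)) (phi_int.integrableOn (s := Ioi s))
  rw [phi_half] at h
  unfold Tl
  linarith

theorem Tl_deriv (s : ℝ) : HasDerivAt Tl (-phi s) s := by
  have h := intervalIntegral.integral_hasDerivAt_right (phi_cont.intervalIntegrable 0 s)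
    (phi_cont.stronglyMeasurableAtFilter _ _) phi_cont.continuousAt
  exact h.const_sub (1 / 2)

theorem Tl_tendsto : Tendsto Tl atTop (𝓝 0) := by
  have h := intervalIntegral_tendsto_integral_Ioi (μ := volume) (f := phi) 0
    phi_int.integrableOn tendsto_id
  rw [phi_half] at h
  have h2 := h.const_sub (1 / 2)
  rw [sub_self] at h2
  exact h2

theorem phi_deriv (s : ℝ) : HasDerivAt (fun t => - phi t) (s * phi s) s := by
  unfold phi
  have h1 : HasDerivAt (fun t : ℝ => -(1 / 2) * t ^ 2) (-s) s := by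
    have := (hasDerivAt_pow 2 s).const_mul (-(1 / 2) : ℝ)
    refine this.congr_deriv ?_
    push_cast
    ring
  have h2 := (h1.exp.const_mul (√(2 * π))⁻¹).fun_neg
  refine h2.congr_deriv ?_
  ring

theorem phi_tendsto : Tendsto (fun t => - phi t) atTop (𝓝 0) := by
  have h1 : Tendsto (fun t : ℝ => -(1 / 2) * t ^ 2) atTop atBot := by
    refine Tendsto.const_mul_atTop_of_neg (by norm_num) (tendsto_pow_atTop (by norm_num))
  have h2 := (tendsto_exp_atBot.comp h1).const_mul (√(2 * π))⁻¹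
  have h3 := h2.neg
  simpa [phi] using h3

theorem int_mul_phi (s : ℝ) : ∫ t in Ioi s, t * phi t = phi s := by
  rw [integral_Ioi_of_hasDerivAt_of_tendsto' (f := fun t => - phi t) (m := 0)
    (fun x _ => phi_deriv x) mul_phi_int.integrableOn phi_tendsto]
  ring

/-- `∫ max(t - s, 0) φ = φ(s) - s Φ̄(s)` -/
theorem int_pos_part (s : ℝ) : ∫ t, phi t * max (t - s) 0 = phi s - s * Tl s := by
  have h1 : ∀ t, phi t * max (t - s) 0 = (Ioi s).indicator (fun t => t * phi t - s * phi t) t := by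
    intro t
    by_cases ht : t ∈ Ioi s
    · rw [indicator_of_mem ht, max_eq_left (by have := mem_Ioi.1 ht; linarith)]
      ring
    · rw [indicator_of_notMem ht, max_eq_right (by have := not_lt.1 (fun h => ht (mem_Ioi.2 h)); linarith)]
      ring
  simp only [h1]
  rw [integral_indicator measurableSet_Ioi, integral_sub mul_phi_int.integrableOn
    (phi_int.integrableOn.const_mul s), integral_const_mul, int_mul_phi, Tl_eq]

/-- `e^{-x} ≤ 1 - x + x²/2 - x³/6 + x⁴/24` for `x ≥ 0` -/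
theorem exp_neg_le {x : ℝ} (hx : 0 ≤ x) :
    exp (-x) ≤ 1 - x + x ^ 2 / 2 - x ^ 3 / 6 + x ^ 4 / 24 := by
  have hmono : MonotoneOn (fun x : ℝ => exp x * (1 - x + x ^ 2 / 2 - x ^ 3 / 6 + x ^ 4 / 24))
      (Ici 0) := by
    have hder : ∀ x : ℝ, HasDerivAt
        (fun x : ℝ => exp x * (1 - x + x ^ 2 / 2 - x ^ 3 / 6 + x ^ 4 / 24))
        (exp x * (x ^ 4 / 24)) x := by
      intro x
      have h1 : HasDerivAt (fun x : ℝ => 1 - x + x ^ 2 / 2 - x ^ 3 / 6 + x ^ 4 / 24)
          (-1 + x - x ^ 2 / 2 + x ^ 3 / 6) x := by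
        have a1 := (hasDerivAt_id x).const_sub 1
        have a2 := (hasDerivAt_pow 2 x).div_const 2
        have a3 := (hasDerivAt_pow 3 x).div_const 6
        have a4 := (hasDerivAt_pow 4 x).div_const 24
        have a5 := ((a1.fun_add a2).fun_sub a3).fun_add a4
        refine a5.congr_deriv ?_
        push_cast
        ring
      have h2 := (Real.hasDerivAt_exp x).fun_mul h1
      refine h2.congr_deriv ?_
      ring
    refine monotoneOn_of_deriv_nonneg (convex_Ici 0)
      (fun x _ => (hder x).continuousAt.continuousWithinAt)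
      (fun x _ => (hder x).differentiableAt.differentiableWithinAt) ?_
    intro x _
    rw [(hder x).deriv]
    positivity
  have h := hmono (self_mem_Ici) (mem_Ici.2 hx) hx
  simp only [Real.exp_zero] at h
  have h2 : exp (-x) * exp x = 1 := by rw [← Real.exp_add]; simp
  have h3 := Real.exp_pos (-x)
  have h4 : exp (-x) * 1 ≤ exp (-x) *
      (exp x * (1 - x + x ^ 2 / 2 - x ^ 3 / 6 + x ^ 4 / 24)) := by
    refine mul_le_mul_of_nonneg_left ?_ h3.le
    linarith
  rw [← mul_assoc, h2, one_mul, mul_one] at h4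
  exact h4

theorem inv_root_le : (√(2 * π))⁻¹ ≤ 0.39895 := by
  have h1 : (2.50658 : ℝ) ≤ √(2 * π) := by
    apply Real.le_sqrt_of_sq_le
    have := Real.pi_gt_d4
    norm_num
    linarith
  calc (√(2 * π))⁻¹ ≤ (2.50658 : ℝ)⁻¹ := inv_anti₀ (by norm_num) h1
    _ ≤ 0.39895 := by norm_num

/-- numerical lower bound for the tail at `1.065` -/
theorem Tl_num : (0.1434 : ℝ) ≤ Tl 1.065 := by
  have h1 : ∫ t in (0 : ℝ)..1.065, phi t
      ≤ ∫ t in (0 : ℝ)..1.065, 0.39895 * (1 - t ^ 2 / 2 + t ^ 4 / 8 - t ^ 6 / 48 + t ^ 8 / 384) := by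
    refine intervalIntegral.integral_mono_on (by norm_num) (phi_cont.intervalIntegrable _ _)
      (Continuous.intervalIntegrable (by fun_prop) _ _) ?_
    intro t _
    have h2 := exp_neg_le (x := t ^ 2 / 2) (by positivity)
    have h3 : exp (-(1 / 2) * t ^ 2) = exp (-(t ^ 2 / 2)) := by congr 1; ring
    unfold phi
    rw [h3]
    have h4 := Real.exp_pos (-(t ^ 2 / 2))
    calc (√(2 * π))⁻¹ * exp (-(t ^ 2 / 2)) ≤ 0.39895 * exp (-(t ^ 2 / 2)) :=
          mul_le_mul_of_nonneg_right inv_root_le h4.le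
      _ ≤ 0.39895 * (1 - t ^ 2 / 2 + t ^ 4 / 8 - t ^ 6 / 48 + t ^ 8 / 384) := by
          refine mul_le_mul_of_nonneg_left ?_ (by norm_num)
          refine h2.trans (le_of_eq ?_)
          ring
  have h5 : ∫ t in (0 : ℝ)..1.065, 0.39895 * (1 - t ^ 2 / 2 + t ^ 4 / 8 - t ^ 6 / 48 + t ^ 8 / 384)
      = 0.39895 * (1.065 - 1.065 ^ 3 / 6 + 1.065 ^ 5 / 40 - 1.065 ^ 7 / 336 + 1.065 ^ 9 / 3456) := by
    have hder : ∀ t : ℝ, HasDerivAt
        (fun t : ℝ => 0.39895 * (t - t ^ 3 / 6 + t ^ 5 / 40 - t ^ 7 / 336 + t ^ 9 / 3456))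
        (0.39895 * (1 - t ^ 2 / 2 + t ^ 4 / 8 - t ^ 6 / 48 + t ^ 8 / 384)) t := by
      intro t
      have a1 := hasDerivAt_id t
      have a3 := (hasDerivAt_pow 3 t).div_const 6
      have a5 := (hasDerivAt_pow 5 t).div_const 40
      have a7 := (hasDerivAt_pow 7 t).div_const 336
      have a9 := (hasDerivAt_pow 9 t).div_const 3456
      have b := ((((a1.fun_sub a3).fun_add a5).fun_sub a7).fun_add a9).const_mul (0.39895 : ℝ)
      refine b.congr_deriv ?_
      push_cast
      ring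
    rw [intervalIntegral.integral_eq_sub_of_hasDerivAt (fun t _ => hder t)
      (Continuous.intervalIntegrable (by fun_prop) _ _)]
    norm_num
  rw [h5] at h1
  unfold Tl
  have h6 : (0.39895 : ℝ) * (1.065 - 1.065 ^ 3 / 6 + 1.065 ^ 5 / 40 - 1.065 ^ 7 / 336
      + 1.065 ^ 9 / 3456) ≤ 0.3566 := by norm_num
  linarith

/-- the comparison function -/
noncomputable def hf (s : ℝ) : ℝ := Tl s - 4 / 9 * exp (-s ^ 2)

noncomputable def gf (s : ℝ) : ℝ := 8 / 9 * √(2 * π) * (s * exp (-(1 / 2) * s ^ 2))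

theorem hf_deriv (s : ℝ) : HasDerivAt hf (phi s * (gf s - 1)) s := by
  have h1 : HasDerivAt (fun t : ℝ => -t ^ 2) (-(2 * s)) s := by
    have := (hasDerivAt_pow 2 s).fun_neg
    refine this.congr_deriv ?_
    push_cast
    ring
  have h2 := (Tl_deriv s).fun_sub (h1.exp.const_mul (4 / 9 : ℝ))
  refine h2.congr_deriv ?_
  unfold phi gf
  have h3 : exp (-s ^ 2) = exp (-(1 / 2) * s ^ 2) * exp (-(1 / 2) * s ^ 2) := by
    rw [← Real.exp_add]; congr 1; ring
  rw [h3]
  have := root_pos.ne'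
  field_simp
  ring

theorem gf_anti : AntitoneOn gf (Ici 1) := by
  have hder : ∀ s : ℝ, HasDerivAt gf
      (8 / 9 * √(2 * π) * ((1 - s ^ 2) * exp (-(1 / 2) * s ^ 2))) s := by
    intro s
    have h1 : HasDerivAt (fun t : ℝ => -(1 / 2) * t ^ 2) (-s) s := by
      have := (hasDerivAt_pow 2 s).const_mul (-(1 / 2) : ℝ)
      refine this.congr_deriv ?_
      push_cast
      ring
    have h2 := ((hasDerivAt_id s).fun_mul h1.exp).const_mul (8 / 9 * √(2 * π))
    refine h2.congr_deriv ?_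
    simp only [id]
    ring
  refine antitoneOn_of_deriv_nonpos (convex_Ici 1)
    (fun x _ => (hder x).continuousAt.continuousWithinAt)
    (fun x _ => (hder x).differentiableAt.differentiableWithinAt) ?_
  intro s hs
  rw [interior_Ici, mem_Ioi] at hs
  rw [(hder s).deriv]
  have h1 : 1 - s ^ 2 ≤ 0 := by nlinarith
  have h2 := Real.exp_pos (-(1 / 2) * s ^ 2)
  have h3 := root_pos
  have h4 : (1 - s ^ 2) * exp (-(1 / 2) * s ^ 2) ≤ 0 := mul_nonpos_of_nonpos_of_nonneg h1 h2.le
  exact mul_nonpos_of_nonneg_of_nonpos (by positivity) h4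

theorem hf_num : 0 ≤ hf 1.065 := by
  have h1 := Tl_num
  have h2 : (3.1 : ℝ) ≤ exp (1.065 ^ 2) := by
    have h3 := Real.sum_le_exp_of_nonneg (x := 1.065 ^ 2) (by positivity) 6
    refine le_trans ?_ h3
    simp only [Finset.sum_range_succ, Finset.sum_range_zero, Nat.factorial]
    norm_num
  have h4 : exp (-(1.065 : ℝ) ^ 2) ≤ 3.1⁻¹ := by
    rw [Real.exp_neg]
    exact inv_anti₀ (by norm_num) h2
  unfold hf
  have h5 : (4 : ℝ) / 9 * 3.1⁻¹ ≤ 0.1434 := by norm_num
  linarith

theorem hf_tendsto : Tendsto hf atTop (𝓝 0) := by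
  have h1 : Tendsto (fun t : ℝ => -t ^ 2) atTop atBot :=
    tendsto_neg_atTop_atBot.comp (tendsto_pow_atTop (by norm_num))
  have h2 := (tendsto_exp_atBot.comp h1).const_mul (4 / 9 : ℝ)
  have h3 := Tl_tendsto.sub h2
  rw [mul_zero, sub_zero] at h3
  exact h3

/-- `Φ̄(s) ≥ (4/9) e^{-s²}` for `s ≥ 1.065` -/
theorem hf_nonneg {s : ℝ} (hs : 1.065 ≤ s) : 0 ≤ hf s := by
  rcases le_or_gt 1 (gf s) with h | h
  · have hmono : MonotoneOn hf (Icc 1.065 s) := by
      refine monotoneOn_of_deriv_nonneg (convex_Icc _ _)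
        (fun x _ => (hf_deriv x).continuousAt.continuousWithinAt)
        (fun x _ => (hf_deriv x).differentiableAt.differentiableWithinAt) ?_
      intro t ht
      rw [interior_Icc, mem_Ioo] at ht
      rw [(hf_deriv t).deriv]
      have h1 : gf s ≤ gf t := gf_anti (mem_Ici.2 (by linarith [ht.1])) (mem_Ici.2 (by linarith))
        ht.2.le
      exact mul_nonneg (phi_pos t).le (by linarith)
    exact hf_num.trans (hmono (left_mem_Icc.2 hs) (right_mem_Icc.2 hs) hs)
  · have hanti : AntitoneOn hf (Ici s) := by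
      refine antitoneOn_of_deriv_nonpos (convex_Ici _)
        (fun x _ => (hf_deriv x).continuousAt.continuousWithinAt)
        (fun x _ => (hf_deriv x).differentiableAt.differentiableWithinAt) ?_
      intro t ht
      rw [interior_Ici, mem_Ioi] at ht
      rw [(hf_deriv t).deriv]
      have h1 : gf t ≤ gf s := gf_anti (mem_Ici.2 (by linarith)) (mem_Ici.2 (by linarith)) ht.le
      exact mul_nonpos_of_nonneg_of_nonpos (phi_pos t).le (by linarith)
    refine le_of_tendsto hf_tendsto ?_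
    filter_upwards [eventually_ge_atTop s] with t ht
    exact hanti (self_mem_Ici) (mem_Ici.2 ht) ht

/-- every small mass is the tail at some `s ≥ 1.065` -/
theorem exists_tail {m : ℝ} (hm0 : 0 < m) (hm : m ≤ 1 / 7) : ∃ s, 1.065 ≤ s ∧ Tl s = m := by
  obtain ⟨S, hS1, hS2⟩ : ∃ S, 1.065 ≤ S ∧ Tl S < m := by
    have h1 := Tl_tendsto.eventually (gt_mem_nhds hm0)
    obtain ⟨S, hS⟩ := (h1.and (eventually_ge_atTop 1.065)).exists
    exact ⟨S, hS.2, hS.1⟩
  have hcont : ContinuousOn Tl (Icc 1.065 S) :=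
    fun x _ => (Tl_deriv x).continuousAt.continuousWithinAt
  have h1 := intermediate_value_Icc' hS1 hcont
  have h2 : m ∈ Icc (Tl S) (Tl 1.065) := by
    refine ⟨hS2.le, ?_⟩
    have h3 := Tl_num
    have h4 : (1 : ℝ) / 7 ≤ 0.1434 := by norm_num
    linarith
  obtain ⟨s, hs, hs2⟩ := h1 h2
  exact ⟨s, hs.1, hs2⟩

end P226
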