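import Mathlib
import Vale.Agent.P226.Calc

/-! P226: first moments of small and large cells. -/

namespace P226

open MeasureTheory Set Filter Topology Real ProbabilityTheory

variable {d : ℕ}

/-- the standard Gaussian measure on `ℝ^d` -/
noncomputable abbrev gam (d : ℕ) : Measure (EuclideanSpace ℝ (Fin d)) :=
  stdGaussian (EuclideanSpace ℝ (Fin d))

theorem marginal (u : EuclideanSpace ℝ (Fin d)) (hu : ‖u‖ = 1) :
    (gam d).map (fun x => inner ℝ u x) = gaussianReal 0 1 := by
  have h := IsGaussian.map_eq_gaussianReal (μ := gam d) (innerSL ℝ u)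
  rw [integral_strongDual_stdGaussian, variance_dual_stdGaussian, innerSL_apply_norm, hu] at h
  have e : (fun x => inner ℝ u x) = ⇑(innerSL ℝ u) := by
    funext x
    simp
  rw [e, h]
  simp

theorem integrable_inner (u : EuclideanSpace ℝ (Fin d)) :
    Integrable (fun x => inner ℝ u x) (gam d) := by
  have h : Integrable (fun x : EuclideanSpace ℝ (Fin d) => x) (gam d) :=
    IsGaussian.integrable_id
  exact h.const_inner u

/-- bathtub bound -/
theorem bathtub (u : EuclideanSpace ℝ (Fin d)) (hu : ‖u‖ = 1) (A : Set (EuclideanSpace ℝ (Fin d)))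
    (hA : MeasurableSet A) (s : ℝ) :
    ∫ x in A, inner ℝ u x ∂(gam d) ≤ s * (gam d).real A + (phi s - s * Tl s) := by
  have hint := integrable_inner u
  have hint2 : Integrable (fun x => inner ℝ u x - s) (gam d) := hint.sub (integrable_const s)
  have hpos : Integrable (fun x => max (inner ℝ u x - s) 0) (gam d) := hint2.pos_part
  have h1 : ∫ x in A, inner ℝ u x ∂(gam d)
      = s * (gam d).real A + ∫ x in A, (inner ℝ u x - s) ∂(gam d) := by
    rw [integral_sub hint.integrableOn (integrable_const s).integrableOn]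
    simp
    ring
  have h2 : ∫ x in A, (inner ℝ u x - s) ∂(gam d) ≤ ∫ x, max (inner ℝ u x - s) 0 ∂(gam d) := by
    calc ∫ x in A, (inner ℝ u x - s) ∂(gam d)
        ≤ ∫ x in A, max (inner ℝ u x - s) 0 ∂(gam d) :=
          integral_mono hint2.integrableOn hpos.integrableOn fun x => le_max_left _ _
      _ ≤ ∫ x, max (inner ℝ u x - s) 0 ∂(gam d) :=
          setIntegral_le_integral hpos (Eventually.of_forall fun x => le_max_right _ _)
  have h3 : ∫ x, max (inner ℝ u x - s) 0 ∂(gam d) = phi s - s * Tl s := by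
    have h4 : ∫ x, max (inner ℝ u x - s) 0 ∂(gam d)
        = ∫ t, max (t - s) 0 ∂((gam d).map (fun x => inner ℝ u x)) := by
      rw [integral_map (by fun_prop) (by fun_prop)]
    rw [h4, marginal u hu, integral_gaussianReal_eq_integral_smul (by norm_num), ← int_pos_part]
    refine integral_congr_ae (Eventually.of_forall fun t => ?_)
    simp only [gaussianPDFReal, phi, smul_eq_mul, NNReal.coe_one, mul_one, sub_zero]
    congr 3
    ring
  rw [h1]
  linarith [h2, h3.le]

/-- the first moment -/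
noncomputable def zm (A : Set (EuclideanSpace ℝ (Fin d))) : EuclideanSpace ℝ (Fin d) :=
  ∫ x in A, x ∂(gam d)

theorem norm_zm_le (A : Set (EuclideanSpace ℝ (Fin d))) (hA : MeasurableSet A) (s : ℝ) (b : ℝ)
    (hb : 0 ≤ b) (h : s * (gam d).real A + (phi s - s * Tl s) ≤ b) : ‖zm A‖ ≤ b := by
  by_cases h0 : zm A = 0
  · rw [h0, norm_zero]; exact hb
  · have hn : 0 < ‖zm A‖ := norm_pos_iff.2 h0
    set u : EuclideanSpace ℝ (Fin d) := (‖zm A‖)⁻¹ • zm A with hu
    have hu1 : ‖u‖ = 1 := by
      rw [hu, norm_smul, norm_inv, norm_norm, inv_mul_cancel₀ hn.ne']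
    have h1 := bathtub u hu1 A hA s
    have h2 : ∫ x in A, inner ℝ u x ∂(gam d) = inner ℝ u (zm A) := by
      have hi : Integrable (fun x : EuclideanSpace ℝ (Fin d) => x) ((gam d).restrict A) :=
        (IsGaussian.integrable_id (μ := gam d)).integrableOn
      exact integral_inner hi u
    have h3 : inner ℝ u (zm A) = ‖zm A‖ := by
      rw [hu, real_inner_smul_left, real_inner_self_eq_norm_sq, sq, ← mul_assoc,
        inv_mul_cancel₀ hn.ne', one_mul]
    rw [h2, h3] at h1
    exact h1.trans h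

theorem cell_small (A : Set (EuclideanSpace ℝ (Fin d))) (hA : MeasurableSet A)
    (h : (gam d).real A ≤ 1 / 7) : ‖zm A‖ ^ 2 ≤ 9 / (8 * π) * (gam d).real A := by
  rcases (measureReal_nonneg (μ := gam d) (s := A)).eq_or_lt with h0 | h0
  · have h1 : (gam d) A = 0 := by
      rw [Measure.real, eq_comm, ENNReal.toReal_eq_zero_iff] at h0
      rcases h0 with h2 | h2
      · exact h2
      · exact absurd h2 (measure_ne_top _ _)
    have h2 : zm A = 0 := by
      unfold zm
      rw [Measure.restrict_eq_zero.2 h1]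
      simp
    rw [h2, ← h0]
    simp
  · obtain ⟨s, hs, hs2⟩ := exists_tail h0 h
    have h1 : ‖zm A‖ ≤ phi s := norm_zm_le A hA s (phi s) (phi_pos s).le (by rw [hs2]; linarith)
    have h2 := hf_nonneg hs
    unfold hf at h2
    have h3 : phi s ^ 2 = 9 / (8 * π) * (4 / 9 * exp (-s ^ 2)) := by
      unfold phi
      have h4 : exp (-s ^ 2) = exp (-(1 / 2) * s ^ 2) ^ 2 := by
        rw [← Real.exp_nat_mul]; congr 1; push_cast; ring
      rw [mul_pow, inv_pow, Real.sq_sqrt (by positivity), h4]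
      have := Real.pi_pos.ne'
      field_simp
      ring
    calc ‖zm A‖ ^ 2 ≤ phi s ^ 2 := pow_le_pow_left₀ (norm_nonneg _) h1 2
      _ = 9 / (8 * π) * (4 / 9 * exp (-s ^ 2)) := h3
      _ ≤ 9 / (8 * π) * (gam d).real A := by
          refine mul_le_mul_of_nonneg_left ?_ (by positivity)
          rw [← hs2]
          linarith

theorem cell_large (A : Set (EuclideanSpace ℝ (Fin d))) (hA : MeasurableSet A)
    (h : 4 / 9 ≤ (gam d).real A) : ‖zm A‖ ^ 2 ≤ 9 / (8 * π) * (gam d).real A := by
  have h1 : ‖zm A‖ ≤ phi 0 := norm_zm_le A hA 0 (phi 0) (phi_pos 0).le (by simp)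
  have h3 : phi 0 ^ 2 = 9 / (8 * π) * (4 / 9) := by
    unfold phi
    rw [mul_pow, inv_pow, Real.sq_sqrt (by positivity)]
    have := Real.pi_pos.ne'
    simp
    field_simp
    ring
  calc ‖zm A‖ ^ 2 ≤ phi 0 ^ 2 := pow_le_pow_left₀ (norm_nonneg _) h1 2
    _ = 9 / (8 * π) * (4 / 9) := h3
    _ ≤ 9 / (8 * π) * (gam d).real A := mul_le_mul_of_nonneg_left h (by positivity)

theorem propeller_cells (k : ℕ) (A : Fin k → Set (EuclideanSpace ℝ (Fin d)))
    (hA : ∀ i, MeasurableSet (A i)) (hdisj : Pairwise (Function.onFun Disjoint A))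
    (h : ∀ i, (gam d).real (A i) ≤ 1 / 7 ∨ 4 / 9 ≤ (gam d).real (A i)) :
    ∑ i, ‖∫ x in A i, x ∂(gam d)‖ ^ 2 ≤ 9 / (8 * π) := by
  have h1 : ∀ i, ‖∫ x in A i, x ∂(gam d)‖ ^ 2 ≤ 9 / (8 * π) * (gam d).real (A i) := by
    intro i
    rcases h i with h2 | h2
    · exact cell_small (A i) (hA i) h2
    · exact cell_large (A i) (hA i) h2
  calc ∑ i, ‖∫ x in A i, x ∂(gam d)‖ ^ 2 ≤ ∑ i, 9 / (8 * π) * (gam d).real (A i) :=
        Finset.sum_le_sum fun i _ => h1 i
    _ = 9 / (8 * π) * ∑ i, (gam d).real (A i) := by rw [Finset.mul_sum]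
    _ ≤ 9 / (8 * π) * 1 := by
        refine mul_le_mul_of_nonneg_left ?_ (by positivity)
        have h2 : ∑ i, (gam d).real (A i) = (gam d).real (⋃ i, A i) := by
          rw [measureReal_iUnion_fintype hdisj hA]
        rw [h2]
        exact measureReal_le_one
    _ = 9 / (8 * π) := mul_one _

end P226
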